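import Vale.Agent.P144D.W.Base
import Vale.Agent.P144Z.RN.Shr

/-!
The structure of the boundary that is used by the steps of the flow.
-/

namespace Vale.Agent.P144Z

open Finset Matrix

variable {M : ℕ} [NeZero M]

/-- On the square of radius `r` around `y`, the fields at scale `ℓ'` have size `c` and are
multiples of one field up to an error of size `η`. -/
def RkA (A : Gauge M) (ℓ ℓ' r : ℕ) (c η : ℝ) (y : Tor M) : Prop :=
  ∃ u, ∀ w, hsq A ℓ (ball y r) w * (ℓ' : ℝ) ^ 2 ≤ c ^ 2 * (ℓ : ℝ) ^ 2 * hsq A ℓ' (ball y ℓ') w ∧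
    ∃ t : ℝ, hsq A ℓ (ball y r) (w - t • u) * (ℓ' : ℝ) ^ 2 ≤
      η ^ 2 * (ℓ : ℝ) ^ 2 * hsq A ℓ' (ball y ℓ') w

/-- Near the faces that are not in the bulk the fields have size `c`; locally these faces are
deep (size `κ`), or near one of `n₁` points of rank one, or near one of `n₂` bad points. -/
structure Bd (A : Gauge M) (ℓ ℓ' m : ℕ) (c η κ : ℝ) (n₁ n₂ : ℕ) : Prop where
  sch : ∀ z, (∃ f, tdist f z ≤ ℓ' ∧ |flux A f| ≠ 1) → RN.Shr A ℓ ℓ' z (c * √((ℓ : ℝ) / ℓ'))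
  cov : ∀ z, ∃ Z₁ Z₂ : Finset (Tor M), Z₁.card ≤ n₁ ∧ Z₂.card ≤ n₂ ∧
    (∀ y ∈ Z₁, RkA A ℓ ℓ' ((m + 3) * ℓ) c η y) ∧
    ∀ x, tdist x z ≤ 3 * ℓ' → (∃ f, tdist f x ≤ 6 * ℓ ∧ |flux A f| ≠ 1) →
      RN.Shr A ℓ ℓ' x κ ∨ (∃ y ∈ Z₁, tdist x y ≤ m * ℓ) ∨ ∃ y ∈ Z₂, tdist x y ≤ m * ℓ

/-- The loss of contraction caused by the boundary. -/
noncomputable def bdl (L m : ℕ) (c η κ : ℝ) (n₁ n₂ : ℕ) : ℝ :=
  (L : ℝ) ^ 2 * κ ^ 2 + (m + 1) ^ 2 * (n₁ * c * η + n₂ * c ^ 2) / L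

/-- The fluxes and the sources are at distance more than `r` from each other and from the
boundary. -/
structure Geo.SepW (g : Geo) (r : ℕ) : Prop where
  ff : ∀ f, flux g.A f = -1 → ∀ f', f' ≠ f → tdist f' f ≤ r → flux g.A f' = 1
  fs : ∀ k, Flat g.A (g.src k).y r
  ss : ∀ k k', k ≠ k' → r < tdist (g.src k).y (g.src k').y

end Vale.Agent.P144Z
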