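import Vale.Agent.P144D.R8.Core
import Vale.Agent.P144D.R8.Defs

/-!
# Steps with a boundary: one integration, the extracted terms, the sources
-/

namespace Vale.Agent.P144Z.W.Geo.R8

open Finset Matrix Vale.Agent.P144Z.Geo Vale.Agent.P144Z.R8 Filter Topology

variable {g : Geo}

/-- The sizes of the potentials. -/
theorem anch_H {ℓ : ℕ} {h β τ : ℝ} (a : Ad g ℓ h β) {s s' : g.St} (hs : g.Wf s) (hs' : g.Wf s')
    (hf : g.Free s') {D b e : ℝ} (hD : Anch ℓ τ (g.df ℓ h β s s') D) (hb : Anch ℓ τ (g.bf ℓ h s) b)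
    (he : Anch ℓ τ (g.df ℓ h β s' (g.srcSt 0)) e) :
    Anch ℓ τ (fun X => g.pn ℓ h β X (s.H X)) (D + b + e) ∧
      Anch ℓ τ (fun X => g.pn ℓ h β X (s'.H X)) (D + b + e) ∧
      Anch ℓ τ (fun X => g.pn ℓ h β X (s.H X - s'.H X)) (D + b) := by
  have h1 : Anch ℓ τ (fun X => g.pn ℓ h β X (s.H X - s'.H X)) (D + b) :=
    anch_mono (anch_add hD hb) (pn_H_sub a hs hf) le_rfl
  have h2 : Anch ℓ τ (fun X => g.pn ℓ h β X (s'.H X)) e := anch_mono he (fun X => by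
    have h3 := pn_H_sub a hs' (wf_srcSt 0).2 X
    rwa [H_src_zero, sub_zero, bf_free a hs' hf, add_zero] at h3) le_rfl
  have h3 := G.anch_nonneg (fun X => pn_nonneg _ _) h1
  refine ⟨anch_mono (anch_add h1 h2) (fun X => ?_) le_rfl, anch_mono h2 (fun _ => le_rfl)
    (by linarith), h1⟩
  have h4 := a.add X (s.H X - s'.H X) (s'.H X)
  rwa [sub_add_cancel] at h4

/-- One integration of the flow. -/
theorem cl_P : ∃ L₀ : ℕ, ∀ L ≥ L₀, ∃ C : ℝ, 1 ≤ C ∧ ∀ (g : Geo) (ℓ : ℕ) (h β : ℝ), Ad g ℓ h β →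
    8 ≤ ℓ → (L : ℝ) ^ 2 ≤ h →
    (∀ U, ∀ F ∈ g.sub U,
      g.pn ℓ (h / 2) β U (evG (g.exM (covP (Dm g.A) ℓ (L * ℓ))) F) ≤ g.pn ℓ h β U F) ∧
    ∀ s s' : g.St, g.Wf s → g.Wf s' → g.Free s' → ∀ D b e : ℝ, C * (D + b + e) ≤ 1 →
      Anch ℓ L (g.df ℓ h β s s') D → Anch ℓ L (g.bf ℓ h s) b →
      Anch ℓ L (g.df ℓ h β s' (g.srcSt 0)) e →
      g.ExpId (covP (Dm g.A) ℓ (L * ℓ)) s ∧
      Anch (L * ℓ) (2 * L) (fun U => g.pn ℓ (h / 2) β U (NL g (covP (Dm g.A) ℓ (L * ℓ)) s s' U))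
        (C * (D + b + e) * (D + b)) ∧
      Anch (L * ℓ) (2 * L) (fun U => g.pn ℓ (h / 2) β U
        (g.intg ℓ (L * ℓ) s U - g.intg ℓ (L * ℓ) s' U)) (C * (D + b)) := by
  obtain ⟨Cg, hCg, hgram⟩ := gram_covP
  refine ⟨⌈4 * Cg⌉₊, fun L hL => ?_⟩
  have hL1 : 4 * Cg ≤ L := Nat.ceil_le.1 hL
  have hL4 : 4 ≤ L := by
    have : (4 : ℝ) ≤ L := by linarith
    exact_mod_cast this
  obtain ⟨C, hC, H⟩ := step_cl L (by linarith) L
  refine ⟨C, hC, fun g ℓ h β a hl hh => ?_⟩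
  have h4 : 4 * ℓ ≤ L * ℓ := Nat.mul_le_mul_right ℓ hL4
  have hl0 : (ℓ : ℝ) ≠ 0 := by positivity
  have hc : Cg * ((L * ℓ : ℕ) : ℝ) / ℓ = Cg * L := by push_cast; field_simp
  obtain ⟨h1, h2⟩ := H g a.sign ℓ (L * ℓ) a.l h4 le_rfl (covP (Dm g.A) ℓ (L * ℓ))
    (cov_anti a.sign _ _) (fun s s' hs => covP_range g.A (by omega) (by omega) hs) _ h β
    (hgram _ _ (isD_Dm a.sign) ℓ (L * ℓ) hl (by omega)) (by positivity)
    (by rw [hc]; nlinarith) a.h a.b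
  refine ⟨h1, fun s s' hs hs' hf D b e hε hD hb he => ?_⟩
  obtain ⟨a1, a2, a3⟩ := anch_H a hs hs' hf hD hb he
  exact h2 s.H s'.H hs.H_empty hs'.H_empty hs.H_mem hs'.H_mem _ _ hε a1 a2 a3

/-- The crude bound of the extracted quadratic term. -/
theorem ext_le : ∃ C : ℝ, 1 ≤ C ∧ ∀ (g : Geo) (L ℓ : ℕ) (h β h' β' : ℝ), Ad g ℓ h β →
    Ad g (L * ℓ) h' β' → 6 ≤ L → 8 ≤ ℓ → 16 * (L * ℓ) ≤ g.M → h' ≤ 2 * h →
    ∀ U, g.Xtr ℓ (L * ℓ) U → ∀ x ∈ U, ∀ F ∈ g.sub U,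
      g.pn (L * ℓ) h' β' (star x) (g.Ext x F) ≤ 16 * C * g.pn ℓ (h / 2) β U F ∧
      ∀ k, (g.src k).y = x → β * (h / 2) ^ 2 * |g.zt k F| ≤ C * ℓ * g.pn ℓ (h / 2) β U F := by
  obtain ⟨C, hC, H⟩ := pn_extract
  refine ⟨C, hC, fun g L ℓ h β h' β' a a' hL hl hM hh U hU x hx F hF => ?_⟩
  have h6 : 6 * ℓ ≤ L * ℓ := Nat.mul_le_mul_right ℓ hL
  obtain ⟨-, -, h1, h2⟩ := H g a.sign ℓ (h / 2) β hl (by omega) a.half.h a.b U x hx hU.1
    (fun f hf => hU.2 x hx f (by omega)) F hF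
  refine ⟨(h2 (L * ℓ) h' β' (by omega) (by omega) (hU.2 x hx) a'.h a'.b).trans
    (mul_le_mul_of_nonneg_right ?_ (pn_nonneg _ _)), h1⟩
  have h3 : h' / (h / 2) ≤ 4 := by rw [div_le_iff₀ a.half.h]; linarith
  have h4 := pow_le_pow_left₀ (div_nonneg a'.h.le a.half.h.le) h3 2
  nlinarith

/-- Change of the coefficients of the comparison state. -/
theorem df_srcSt : ∃ C : ℝ, 1 ≤ C ∧ ∀ L : ℕ, ∀ g : Geo, IsW g.A → ∀ ℓ : ℕ, 8 ≤ ℓ → 4 * ℓ ≤ g.M →
    g.SepW (4 * ℓ) → ∀ h δ : ℝ, 0 < h → 0 < δ → ∀ s : g.St, g.Wf s → ∀ (z z' : g.K → ℝ) (a D : ℝ),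
    0 ≤ a → (∀ k, |z k - z' k| ≤ a) → Anch ℓ L (g.df ℓ h (δ * ℓ / h ^ 2) s (g.srcSt z)) D →
      Anch ℓ L (g.df ℓ h (δ * ℓ / h ^ 2) s (g.srcSt z')) (D + C * Real.exp L * δ * a) := by
  classical
  obtain ⟨C, hC, hloc⟩ := pn_local
  refine ⟨C, hC, fun L g hS ℓ h8 hM hsep h δ hh hδ s hs z z' a D ha hz aD => ?_⟩
  have hℓ : 1 ≤ ℓ := by omega
  have hℓ0 : (0 : ℝ) < ℓ := by exact_mod_cast hℓ
  have hβ : 0 < δ * ℓ / h ^ 2 := by positivity
  have hbE : ∀ k, g.pn ℓ h (δ * ℓ / h ^ 2) (star (g.src k).y) (g.bE k) ≤ C * δ := by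
    intro k
    have hF : Flat g.A (g.src k).y ℓ := flat_mono (hsep.fs k) (by omega)
    refine ((hloc g hS ℓ h _ h8 hM hh hβ _ hF).2.2.2 k rfl).trans_eq ?_
    field_simp
  have hdf : ∀ X, g.df ℓ h (δ * ℓ / h ^ 2) s (g.srcSt z') X ≤
      g.df ℓ h (δ * ℓ / h ^ 2) s (g.srcSt z) X +
        ∑ k ∈ univ.filter (fun k => star (g.src k).y = X), C * δ * a := by
    intro X
    have e : s.car X - (g.srcSt z').car X = (s.car X - (g.srcSt z).car X) +
        ∑ k ∈ univ.filter (fun k => star (g.src k).y = X), (z k - z' k) • g.bE k := by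
      simp only [St.car, srcSt, Pi.zero_apply, Finset.sum_const_zero, zero_add, sub_smul,
        Finset.sum_sub_distrib]
      abel
    unfold Geo.df
    rw [e, R8L.dp_add, R8L.dp_of_noB _ _ (F := ∑ k ∈ _, _) (by simp [map_sum, noB_bE]), add_assoc]
    refine add_le_add le_rfl ((RN.pn_add hℓ hh hβ _ _).trans (add_le_add le_rfl
      ((RN.pn_sum hℓ hh hβ _ _).trans (Finset.sum_le_sum fun k hk => ?_))))
    rw [RN.pn_smul hℓ hh hβ, ← (mem_filter.1 hk).2, mul_comm]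
    exact mul_le_mul (hbE k) (hz k) (abs_nonneg _) (by positivity)
  refine anch_mono (anch_add aD (ε' := C * Real.exp L * δ * a) fun x => ?_) hdf le_rfl
  have hK : (univ.filter fun k => tdist (g.src k).y x ≤ ℓ + 1).card ≤ 1 := by
    refine Finset.card_le_one.2 fun k hk k' hk' => ?_
    by_contra hne
    have h1 := hsep.ss k k' hne
    have h2 := tdist_triangle (g.src k).y x (g.src k').y
    have h3 := (mem_filter.1 hk).2
    have h4 := (mem_filter.1 hk').2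
    rw [tdist_comm x] at h2
    omega
  have hw : 0 ≤ C * Real.exp L * δ * a := by positivity
  calc _ ≤ ∑ X ∈ univ.filter (fun X : Finset g.P => ∃ y ∈ X, tdist y x ≤ ℓ),
        ∑ k ∈ (univ.filter fun k => tdist (g.src k).y x ≤ ℓ + 1).filter
          (fun k => star (g.src k).y = X), C * Real.exp L * δ * a := by
        refine Finset.sum_le_sum fun X hX => ?_
        obtain ⟨y, hy, hyx⟩ := (mem_filter.1 hX).2
        rw [Finset.sum_mul]
        refine (Finset.sum_le_sum fun k hk => ?_).trans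
          (Finset.sum_le_sum_of_subset_of_nonneg (fun k hk => ?_) fun _ _ _ => hw)
        · have h1 : (stein X : ℝ) ≤ ℓ := by
            rw [← (mem_filter.1 hk).2]
            exact_mod_cast (stein_star _).trans (by omega)
          have h2 : Real.exp (L * (stein X : ℝ) / ℓ) ≤ Real.exp L := by
            refine Real.exp_le_exp.2 ?_
            rw [div_le_iff₀ hℓ0]
            gcongr
          calc C * δ * a * Real.exp (L * (stein X : ℝ) / ℓ) ≤ C * δ * a * Real.exp L := by gcongr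
            _ = _ := by ring
        · have h1 := (mem_filter.1 hk).2
          refine mem_filter.2 ⟨mem_filter.2 ⟨mem_univ _, ?_⟩, h1⟩
          have h2 := G.tdist_star (h1 ▸ hy : y ∈ star (g.src k).y)
          have h3 := tdist_triangle (g.src k).y y x
          omega
    _ ≤ ∑ X, ∑ k ∈ (univ.filter fun k => tdist (g.src k).y x ≤ ℓ + 1).filter
          (fun k => star (g.src k).y = X), C * Real.exp L * δ * a :=
        Finset.sum_le_sum_of_subset_of_nonneg (Finset.subset_univ _)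
          fun _ _ _ => Finset.sum_nonneg fun _ _ => hw
    _ = ∑ k ∈ univ.filter (fun k => tdist (g.src k).y x ≤ ℓ + 1), C * Real.exp L * δ * a :=
        Finset.sum_fiberwise _ _ _
    _ ≤ _ := by
        rw [Finset.sum_const, nsmul_eq_mul]
        exact mul_le_of_le_one_left hw (by exact_mod_cast hK)

theorem sepW_mono {r r' : ℕ} (h : g.SepW r) (hr : r' ≤ r) : g.SepW r' :=
  ⟨fun f h1 f' h2 h3 => h.ff f h1 f' h2 (h3.trans hr), fun k => flat_mono (h.fs k) hr,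
    fun k k' h1 => hr.trans_lt (h.ss k k' h1)⟩

theorem sepW_sep {r : ℕ} (h : g.SepW r) : g.Sep r := by
  refine ⟨fun f f' h1 h2 h3 => not_le.1 fun h4 => ?_, fun f k h1 => not_le.1 fun h4 => ?_, h.ss⟩
  · have := h.ff f' h2 f h3 h4
    rw [h1] at this
    norm_num at this
  · have := h.fs k f h4
    rw [h1] at this
    norm_num at this

theorem rem_src (hA : IsW g.A) {ℓ ℓ' : ℕ} (h1 : ℓ ≤ ℓ') (h2 : 2 ≤ ℓ') (hS : g.Sep (ℓ' + 2))
    (z : g.K → ℝ) (U : Finset g.P) : g.rem ℓ ℓ' (g.srcSt z) U = 0 := by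
  have h3 := Cl_srcSt (cov_anti hA ℓ ℓ') (fun s s' hs => covP_range g.A h1 h2 hs) hS.ss z U
  have h4 := (wf_srcSt z).1.Lin_car (cov_anti hA ℓ ℓ') U
  have h5 : (g.srcSt z).H U = (g.srcSt z).car U := zero_add _
  rw [Geo.rem, Geo.intg, h3, h5, sub_eq_zero]
  exact h4

end Vale.Agent.P144Z.W.Geo.R8
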