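import Vale.Agent.P144Z.R8.Main
import Vale.Agent.P144D.W.Main

/-!
# Steps with a boundary: norms
-/

namespace Vale.Agent.P144Z.W.Geo.R8

open Finset Matrix Vale.Agent.P144Z.Geo Vale.Agent.P144Z.R8

section pn

variable {g : Geo} {ℓ : ℕ} {h β : ℝ}

/-- The parameters of a norm are admissible. -/
structure Ad (g : Geo) (ℓ : ℕ) (h β : ℝ) : Prop where
  sign : IsW g.A
  l : 1 ≤ ℓ
  h : 0 < h
  b : 0 < β

theorem Ad.add (a : Ad g ℓ h β) (X : Finset g.P) (F G : g.E) :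
    g.pn ℓ h β X (F + G) ≤ g.pn ℓ h β X F + g.pn ℓ h β X G := by
  obtain ⟨𝓛, -, h2⟩ := exists_locSys a.sign a.l a.h a.b
  rw [← h2]
  exact 𝓛.p_add X F G

theorem Ad.smul (a : Ad g ℓ h β) (X : Finset g.P) (c : ℝ) (F : g.E) :
    g.pn ℓ h β X (c • F) = |c| * g.pn ℓ h β X F := by
  obtain ⟨𝓛, -, h2⟩ := exists_locSys a.sign a.l a.h a.b
  rw [← h2]
  exact 𝓛.p_smul X c F

theorem Ad.mono (a : Ad g ℓ h β) {X Y : Finset g.P} (hXY : X ⊆ Y) {F : g.E} (hF : F ∈ g.sub X) :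
    g.pn ℓ h β Y F ≤ g.pn ℓ h β X F := by
  obtain ⟨𝓛, h1, h2⟩ := exists_locSys a.sign a.l a.h a.b
  rw [← h2]
  exact 𝓛.p_mono hXY (by rwa [h1])

theorem Ad.zero (a : Ad g ℓ h β) (X : Finset g.P) : g.pn ℓ h β X 0 = 0 := by
  rw [← zero_smul ℝ (0 : g.E), a.smul, abs_zero, zero_mul]

theorem Ad.neg (a : Ad g ℓ h β) (X : Finset g.P) (F : g.E) :
    g.pn ℓ h β X (-F) = g.pn ℓ h β X F := by
  rw [← neg_one_smul ℝ F, a.smul, abs_neg, abs_one, one_mul]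

theorem Ad.sub (a : Ad g ℓ h β) (X : Finset g.P) (F G : g.E) :
    g.pn ℓ h β X (F - G) ≤ g.pn ℓ h β X F + g.pn ℓ h β X G := by
  rw [sub_eq_add_neg, ← a.neg X G]
  exact a.add X _ _

theorem Ad.sum (a : Ad g ℓ h β) (X : Finset g.P) {ι : Type*} (t : Finset ι) (F : ι → g.E) :
    g.pn ℓ h β X (∑ i ∈ t, F i) ≤ ∑ i ∈ t, g.pn ℓ h β X (F i) :=
  le_sum_of_subadditive (g.pn ℓ h β X) (a.zero X).le (a.add X) t F

theorem Ad.half (a : Ad g ℓ h β) : Ad g ℓ (h / 2) β := ⟨a.sign, a.l, half_pos a.h, a.b⟩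

theorem Ad.half_le (a : Ad g ℓ h β) {X : Finset g.P} {F : g.E} (hF : F ∈ g.sub X) :
    g.pn ℓ (h / 2) β X F ≤ g.pn ℓ h β X F :=
  pn_mono a.sign a.l a.h a.b hF (half_pos a.h) a.b (half_le_self a.h.le) le_rfl

theorem Ad.sub_noF (a : Ad g ℓ h β) {X : Finset g.P} {F : g.E} (hF : F ∈ g.sub X) :
    g.pn ℓ h β X (F - g.noF F) ≤ 2 * g.pn ℓ h β X F := by
  have h1 := a.sub X F (g.noF F)
  have h2 := pn_noF_le a.sign a.l a.h a.b hF
  linarith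

theorem Ad.dp (a : Ad g ℓ h β) {X : Finset g.P} {F : g.E} (hF : F ∈ g.sub X) (ℓ₁ : ℕ)
    (Y : Finset g.P) : g.pn ℓ h β X (g.dp ℓ₁ Y F) ≤ 2 * g.pn ℓ h β X F :=
  pn_dp_le a.sign a.l a.h a.b hF ℓ₁ Y

end pn

variable {g : Geo} {j ℓ ℓ' : ℕ}

theorem bf_split {h β : ℝ} (a : Ad g ℓ h β) {s s' : g.St} (hs : g.Wf s) (hf : g.Free s')
    (X : Finset g.P) : g.pn ℓ h β X (bp g ℓ X (s.K X - s'.K X)) +
      g.pn ℓ h β X (bp g ℓ X (s.car X - s'.car X)) = g.bf ℓ h s X := by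
  unfold bp Geo.bf
  split_ifs
  · rw [map_sub, map_sub, hf.1, Free.noB_car hf, sub_zero, sub_zero,
      pn_noB_eq a.sign a.l a.h a.b (hs.Kmem X) one_pos,
      pn_noB_eq a.sign a.l a.h a.b (hs.car_mem X) one_pos]
  · rw [a.zero, add_zero]

theorem pn_H_sub {h β : ℝ} (a : Ad g ℓ h β) {s s' : g.St} (hs : g.Wf s) (hf : g.Free s')
    (X : Finset g.P) : g.pn ℓ h β X (s.H X - s'.H X) ≤ g.df ℓ h β s s' X + g.bf ℓ h s X := by
  rw [← bf_split a hs hf, Geo.df, show s.H X - s'.H X = (s.K X - s'.K X) + (s.car X - s'.car X) by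
    rw [St.H, St.H]; abel]
  have h1 := a.add X (s.K X - s'.K X) (s.car X - s'.car X)
  have h2 := a.add X (g.dp ℓ X (s.K X - s'.K X)) (bp g ℓ X (s.K X - s'.K X))
  have h3 := a.add X (g.dp ℓ X (s.car X - s'.car X)) (bp g ℓ X (s.car X - s'.car X))
  rw [dp_add_bp] at h2 h3
  linarith

theorem bf_free {h β : ℝ} (a : Ad g ℓ h β) {s : g.St} (hs : g.Wf s) (hf : g.Free s)
    (X : Finset g.P) : g.bf ℓ h s X = 0 := by
  rw [← bf_split a hs hf, sub_self, sub_self]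
  unfold bp
  split_ifs
  · rw [map_zero, a.zero, add_zero]
  · rw [a.zero, add_zero]

end Vale.Agent.P144Z.W.Geo.R8
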