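import Vale.Agent.P144D.R8.Base

/-!
# Steps with a boundary: the abstract contraction estimate
-/

namespace Vale.Agent.P144Z.W.Geo.R8

open Finset Matrix Vale.Agent.P144Z.Geo Vale.Agent.P144Z.R8

variable {g : Geo}

theorem cov_anti (hA : IsW g.A) (ℓ ℓ' : ℕ) :
    (covP (Dm g.A) ℓ ℓ')ᵀ = -covP (Dm g.A) ℓ ℓ' := covP_anti (isD_Dm hA).anti ℓ ℓ'

theorem rem_sub (hA : IsW g.A) (ℓ ℓ' : ℕ) {s s' : g.St} (hs : g.Wf s) (hs' : g.Wf s')
    (U : Finset g.P) : g.rem ℓ ℓ' s U - g.rem ℓ ℓ' s' U = G1 g ℓ ℓ' s s' U + G2 g ℓ ℓ' s s' U := by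
  have h1 := hs.Lin_car (cov_anti hA ℓ ℓ') U
  have h2 := hs'.Lin_car (cov_anti hA ℓ ℓ') U
  rw [G1, G2, ← add_assoc, ← Lin_add, dp_add_bp]
  simp only [Geo.Lin] at h1 h2
  simp only [Geo.rem, Geo.intg, Geo.Lin, NL, St.H, map_add, map_sub]
  linear_combination (exp := 1) h1 - h2

theorem noB_rem (hA : IsW g.A) (ℓ ℓ' : ℕ) {s : g.St} (hs : g.Wf s) (hf : g.Free s)
    (U : Finset g.P) : g.noB (g.rem ℓ ℓ' s U) = 0 := by
  have h1 : g.noB (g.intg ℓ ℓ' s U) = 0 := Free.Cl hs hf (cov_anti hA ℓ ℓ') U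
  rw [Geo.rem, map_sub, map_sub, noB_noF, ← noF_noB, h1, map_zero, Free.noB_car hf, sub_zero,
    sub_zero]

/-- The hypotheses of the abstract step. -/
structure Hyp (g : Geo) (L ℓ j : ℕ) (h β h' β' kc : ℝ) (ks : Finset g.P → ℝ) (ke : ℝ)
    (s s' t : g.St) : Prop where
  a : Ad g ℓ h β
  a' : Ad g (L * ℓ) h' β'
  hL : 6 ≤ L
  hl : 8 ≤ ℓ
  hM : 16 * (L * ℓ) ≤ g.M
  hs : g.Wf s
  hs' : g.Wf s'
  hf : g.Free s'
  tK : ∀ X, t.K X = (g.step j ℓ (L * ℓ) 0 s').K X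
  tv : ∀ x, t.v x = 0
  tz : ∀ k, (g.step j ℓ (L * ℓ) 0 s).z k - t.z k = s.z k - s'.z k
  kc0 : 0 ≤ kc
  ks0 : ∀ U, 0 ≤ ks U
  ke0 : 0 ≤ ke
  hE : ∀ U, ∀ F ∈ g.sub U,
    g.pn ℓ (h / 2) β U (evG (g.exM (covP (Dm g.A) ℓ (L * ℓ))) F) ≤ g.pn ℓ h β U F
  T1 : ∀ U, ∀ F ∈ g.sub U,
    g.pn (L * ℓ) h' β' U F ≤ kc * Real.exp ((stein U : ℝ) / ℓ) * g.pn ℓ (h / 2) β U F
  T2 : ∀ U, stein U ≤ ℓ → Dfc g ℓ U → ∀ F ∈ g.sub U, g.noF F = 0 → (g.nd ℓ U → g.noB F = 0) →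
    g.pn (L * ℓ) h' β' (plus U) (F - xb g j ℓ (L * ℓ) U F) ≤ ks U * g.pn ℓ (h / 2) β U F
  T3 : ∀ X, stein X ≤ ℓ → Dfc g ℓ X → g.pn (L * ℓ) h' β' X (g.dp ℓ X (s.car X - s'.car X)) ≤
    ks X * g.pn ℓ h β X (g.dp ℓ X (s.car X - s'.car X))
  T4 : ∀ U, g.Xtr ℓ (L * ℓ) U → ∀ x ∈ U, ∀ F ∈ g.sub U,
    g.pn (L * ℓ) h' β' (star x) (g.Ext x F) ≤ ke * g.pn ℓ (h / 2) β U F
  T5 : ∀ U, ∀ F ∈ g.sub U,
    g.pn (L * ℓ) h' β' (plus U) (xb g j ℓ (L * ℓ) U F) ≤ ke * g.pn ℓ (h / 2) β U F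

variable {L ℓ j : ℕ} {h β h' β' kc ke : ℝ} {ks : Finset g.P → ℝ} {s s' t : g.St}

namespace Hyp

variable (H : Hyp g L ℓ j h β h' β' kc ks ke s s' t)
include H

theorem anti : (covP (Dm g.A) ℓ (L * ℓ))ᵀ = -covP (Dm g.A) ℓ (L * ℓ) := cov_anti H.a.sign _ _

theorem nd {U : Finset g.P} (hU : g.Xtr ℓ (L * ℓ) U) : g.nd ℓ U := by
  have h1 : 6 * ℓ ≤ L * ℓ := Nat.mul_le_mul_right ℓ H.hL
  have h2 := H.hM
  have h3 := H.hl
  exact xtr_nd hU (by omega) (by omega)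

theorem dK_mem (U : Finset g.P) : s.K U - s'.K U ∈ g.sub U := sub_mem (H.hs.Kmem U) (H.hs'.Kmem U)

theorem dc_mem (U : Finset g.P) : s.car U - s'.car U ∈ g.sub U :=
  sub_mem (H.hs.car_mem U) (H.hs'.car_mem U)

theorem G1_mem (U : Finset g.P) : G1 g ℓ (L * ℓ) s s' U ∈ g.sub U :=
  Lin_mem H.anti (dp_mem (H.dK_mem U) U)

theorem G2_mem (U : Finset g.P) : G2 g ℓ (L * ℓ) s s' U ∈ g.sub U :=
  add_mem (Lin_mem H.anti (bp_mem (H.dK_mem U) U))
    (sub_mem (NL_mem H.anti H.hs H.hs' U) (noF_mem (NL_mem H.anti H.hs H.hs' U)))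

theorem pn_Lin {U : Finset g.P} {F : g.E} (hF : F ∈ g.sub U) :
    g.pn ℓ (h / 2) β U (g.Lin (covP (Dm g.A) ℓ (L * ℓ)) F) ≤ 2 * g.pn ℓ h β U F :=
  (H.a.half.sub_noF (evG_mem _ H.anti hF)).trans
    (mul_le_mul_of_nonneg_left (H.hE U F hF) zero_le_two)

theorem pn_G1 (U : Finset g.P) : g.pn ℓ (h / 2) β U (G1 g ℓ (L * ℓ) s s' U) ≤
    2 * g.pn ℓ h β U (g.dp ℓ U (s.K U - s'.K U)) := H.pn_Lin (dp_mem (H.dK_mem U) U)

theorem pn_G2 (U : Finset g.P) : g.pn ℓ (h / 2) β U (G2 g ℓ (L * ℓ) s s' U) ≤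
    2 * g.pn ℓ h β U (bp g ℓ U (s.K U - s'.K U)) +
      2 * g.pn ℓ (h / 2) β U (NL g (covP (Dm g.A) ℓ (L * ℓ)) s s' U) :=
  (H.a.half.add U _ _).trans (add_le_add (H.pn_Lin (bp_mem (H.dK_mem U) U))
    (H.a.half.sub_noF (NL_mem H.anti H.hs H.hs' U)))

theorem noB_G1 {U : Finset g.P} (hU : g.nd ℓ U) : g.noB (G1 g ℓ (L * ℓ) s s' U) = 0 := by
  rw [G1, noB_Lin H.anti, noB_dp hU, Lin_zero]

theorem wt_eq (X : Finset g.P) :
    Real.exp ((L : ℝ) * (stein X : ℝ) / ((L * ℓ : ℕ) : ℝ)) = Real.exp ((stein X : ℝ) / ℓ) := by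
  have h1 : (L : ℝ) ≠ 0 := by have := H.hL; positivity
  rw [Nat.cast_mul, mul_div_mul_left _ _ h1]

theorem wt_le {X : Finset g.P} (hX : stein X ≤ 6 * ℓ) :
    Real.exp ((stein X : ℝ) / ℓ) ≤ Real.exp 6 := by
  have h1 : (0 : ℝ) < ℓ := by have := H.hl; positivity
  rw [Real.exp_le_exp, div_le_iff₀ h1]
  exact_mod_cast hX

theorem wt_plus {U : Finset g.P} (hU : stein U ≤ ℓ) :
    Real.exp ((stein (plus U) : ℝ) / ℓ) ≤ Real.exp 6 :=
  H.wt_le (by have := stein_plus U; have := H.hl; omega)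

open Classical in
/-- The contraction factor of the linear defect part. -/
noncomputable def fac (g : Geo) (ℓ : ℕ) (kc : ℝ) (ks : Finset g.P → ℝ) (U : Finset g.P) : ℝ :=
  if stein U ≤ ℓ then (if Dfc g ℓ U then Real.exp 6 * ks U else 0)
  else kc * Real.exp (2 * (stein U : ℝ) / ℓ)

theorem fac_nonneg (U : Finset g.P) : 0 ≤ fac g ℓ kc ks U := by
  have := H.kc0
  have := H.ks0 U
  unfold fac
  split_ifs <;> positivity

theorem A1 (U : Finset g.P) :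
    g.pn (L * ℓ) h' β' (g.tgt ℓ U) (G1 g ℓ (L * ℓ) s s' U -
      g.xtr j ℓ (L * ℓ) U (G1 g ℓ (L * ℓ) s s' U)) * Real.exp ((stein (g.tgt ℓ U) : ℝ) / ℓ) ≤
      fac g ℓ kc ks U * (2 * g.pn ℓ h β U (g.dp ℓ U (s.K U - s'.K U))) := by
  refine le_trans ?_ (mul_le_mul_of_nonneg_left (H.pn_G1 U) (H.fac_nonneg U))
  unfold fac Geo.tgt
  by_cases hU : stein U ≤ ℓ
  · rw [if_pos hU, if_pos hU]
    by_cases hD : Dfc g ℓ U
    · rw [if_pos hD]
      have h1 : xe g ℓ (L * ℓ) U (G1 g ℓ (L * ℓ) s s' U) = 0 := by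
        unfold xe
        split_ifs with hX
        · rw [sum_eq_zero fun x _ => Ext_of_noB (H.noB_G1 (H.nd hX)), smul_zero]
        · rfl
      rw [xtr_eq, h1, zero_add, mul_comm, mul_assoc]
      exact mul_le_mul (H.wt_plus hU) (H.T2 U hU hD _ (H.G1_mem U) (noF_Lin _) H.noB_G1)
        (pn_nonneg _ _) (Real.exp_pos _).le
    · rw [if_neg hD, G1, dp_of_not_dfc hD (H.dK_mem U), Lin_zero, xtr_zero, sub_zero, H.a'.zero,
        zero_mul, zero_mul]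
  · rw [if_neg hU, if_neg hU, xtr_large hU, sub_zero, ← P144Z.R8.Hyp.wt_sq]
    have h1 := mul_le_mul_of_nonneg_right (H.T1 U _ (H.G1_mem U))
      (Real.exp_pos ((stein U : ℝ) / ℓ)).le
    linarith

theorem pn_xe (U : Finset g.P) {F : g.E} (hF : F ∈ g.sub U) :
    g.pn (L * ℓ) h' β' (plus U) (xe g ℓ (L * ℓ) U F) ≤ ke * g.pn ℓ (h / 2) β U F := by
  have h0 : 0 ≤ ke * g.pn ℓ (h / 2) β U F := mul_nonneg H.ke0 (pn_nonneg _ _)
  unfold xe
  split_ifs with hX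
  · rw [H.a'.smul, abs_of_nonneg (by positivity)]
    have h1 : g.pn (L * ℓ) h' β' (plus U) (∑ x ∈ U, g.Ext x F) ≤
        U.card * (ke * g.pn ℓ (h / 2) β U F) := by
      rw [← nsmul_eq_mul]
      exact (H.a'.sum _ _ _).trans (sum_le_card_nsmul _ _ _ fun x hx =>
        (H.a'.mono (star_subset_plus hx) (Ext_mem x F)).trans (H.T4 U hX x hx F hF))
    refine (mul_le_mul_of_nonneg_left h1 (by positivity)).trans ?_
    rw [← mul_assoc]
    exact mul_le_of_le_one_left h0 inv_mul_le_one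
  · rw [H.a'.zero]; exact h0

theorem A2 (U : Finset g.P) {F : g.E} (hF : F ∈ g.sub U) :
    g.pn (L * ℓ) h' β' (g.tgt ℓ U) (F - g.xtr j ℓ (L * ℓ) U F) *
      Real.exp ((stein (g.tgt ℓ U) : ℝ) / ℓ) ≤
      Real.exp 6 * (kc + 2 * ke) * Real.exp (2 * (stein U : ℝ) / ℓ) * g.pn ℓ (h / 2) β U F := by
  have h0 := pn_nonneg (ℓ := ℓ) (h := h / 2) (β := β) U F
  have h1 := H.T1 U F hF
  have hc := H.kc0
  have he := H.ke0
  have h6 : 1 ≤ Real.exp 6 := Real.one_le_exp (by norm_num)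
  unfold Geo.tgt
  by_cases hU : stein U ≤ ℓ
  · rw [if_pos hU, xtr_eq, mul_comm, mul_assoc, mul_assoc]
    refine mul_le_mul (H.wt_plus hU) ?_ (pn_nonneg _ _) (Real.exp_pos _).le
    have h2 := H.a'.sub (plus U) F (xe g ℓ (L * ℓ) U F + xb g j ℓ (L * ℓ) U F)
    have h3 := H.a'.add (plus U) (xe g ℓ (L * ℓ) U F) (xb g j ℓ (L * ℓ) U F)
    have h4 := H.pn_xe U hF
    have h5 := H.T5 U F hF
    have h7 := H.a'.mono (G.subset_plus U) hF
    have h8 := mul_le_mul_of_nonneg_left (P144Z.R8.Hyp.wt_le_sq (ℓ := ℓ) U) (mul_nonneg hc h0)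
    have h9 : ke * g.pn ℓ (h / 2) β U F ≤
        ke * g.pn ℓ (h / 2) β U F * Real.exp (2 * (stein U : ℝ) / ℓ) :=
      le_mul_of_one_le_right (mul_nonneg he h0) (Real.one_le_exp (by positivity))
    linarith
  · rw [if_neg hU, xtr_large hU, sub_zero]
    have h2 := mul_le_mul_of_nonneg_right h1 (Real.exp_pos ((stein U : ℝ) / ℓ)).le
    have h3 : kc ≤ Real.exp 6 * (kc + 2 * ke) := by nlinarith
    have h4 := mul_le_mul_of_nonneg_right h3
      (mul_nonneg (Real.exp_pos (2 * (stein U : ℝ) / ℓ)).le h0)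
    rw [← P144Z.R8.Hyp.wt_sq] at h4 ⊢
    linarith

theorem B1 (X : Finset g.P) :
    g.pn (L * ℓ) h' β' X (g.dp ℓ X (s.car X - s'.car X)) * Real.exp ((stein X : ℝ) / ℓ) ≤
      fac g ℓ kc ks X * g.pn ℓ h β X (g.dp ℓ X (s.car X - s'.car X)) := by
  unfold fac
  by_cases hU : stein X ≤ ℓ
  · rw [if_pos hU]
    by_cases hD : Dfc g ℓ X
    · rw [if_pos hD, mul_comm, mul_assoc]
      exact mul_le_mul (H.wt_le (by omega)) (H.T3 X hU hD) (pn_nonneg _ _) (Real.exp_pos _).le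
    · rw [if_neg hD, dp_of_not_dfc hD (H.dc_mem X), H.a'.zero, zero_mul, zero_mul]
  · rw [if_neg hU, ← P144Z.R8.Hyp.wt_sq]
    have h0 := dp_mem (ℓ := ℓ) (H.dc_mem X) X
    have h1 := mul_le_mul_of_nonneg_right ((H.T1 X _ h0).trans (mul_le_mul_of_nonneg_left
      (H.a.half_le h0) (mul_nonneg H.kc0 (Real.exp_pos _).le)))
      (Real.exp_pos ((stein X : ℝ) / ℓ)).le
    linarith

theorem B2 (X : Finset g.P) {F : g.E} (hF : F ∈ g.sub X) :
    g.pn (L * ℓ) h' β' X F * Real.exp ((stein X : ℝ) / ℓ) ≤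
      kc * Real.exp (2 * (stein X : ℝ) / ℓ) * g.pn ℓ h β X F := by
  rw [← P144Z.R8.Hyp.wt_sq]
  have h1 := mul_le_mul_of_nonneg_right ((H.T1 X _ hF).trans (mul_le_mul_of_nonneg_left
    (H.a.half_le hF) (mul_nonneg H.kc0 (Real.exp_pos _).le)))
    (Real.exp_pos ((stein X : ℝ) / ℓ)).le
  linarith

theorem K_eq (X : Finset g.P) : (g.step j ℓ (L * ℓ) 0 s).K X - t.K X =
    ∑ U ∈ univ.filter (fun U => g.tgt ℓ U = X),
      ((G1 g ℓ (L * ℓ) s s' U - g.xtr j ℓ (L * ℓ) U (G1 g ℓ (L * ℓ) s s' U)) +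
        (G2 g ℓ (L * ℓ) s s' U - g.xtr j ℓ (L * ℓ) U (G2 g ℓ (L * ℓ) s s' U))) := by
  rw [H.tK]
  simp only [Geo.step]
  rw [← sum_sub_distrib]
  refine sum_congr (by ext U; simp) fun U _ => ?_
  have h1 := rem_sub H.a.sign ℓ (L * ℓ) H.hs H.hs' U
  have h2 := congrArg (g.xtr j ℓ (L * ℓ) U) h1
  rw [xtr_sub, xtr_add] at h2
  linear_combination (exp := 1) h1 - h2

open Classical in
theorem Ext_out (x : g.P) : g.Ext x (g.out ℓ (L * ℓ) s x) =
    ∑ U ∈ univ.filter (fun U => x ∈ U ∧ g.Xtr ℓ (L * ℓ) U),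
      ((U.card : ℝ)⁻¹) • g.Ext x (G2 g ℓ (L * ℓ) s s' U) := by
  rw [Geo.out, Ext_sum]
  refine sum_congr rfl fun U hU => ?_
  have h1 := congrArg (g.Ext x) (rem_sub H.a.sign ℓ (L * ℓ) H.hs H.hs' U)
  rw [Ext_sub, Ext_add, Ext_of_noB (noB_rem H.a.sign ℓ (L * ℓ) H.hs' H.hf U),
    Ext_of_noB (H.noB_G1 (H.nd (mem_filter.1 hU).2.2)), sub_zero, zero_add] at h1
  rw [Ext_smul, h1]

theorem car_eq (X : Finset g.P) : (g.step j ℓ (L * ℓ) 0 s).car X - t.car X =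
    (s.car X - s'.car X) +
      ∑ x ∈ univ.filter (fun x => star x = X), g.Ext x (g.out ℓ (L * ℓ) s x) := by
  have h1 : ∀ x, (g.step j ℓ (L * ℓ) 0 s).v x = s.v x + g.Ext x (g.out ℓ (L * ℓ) s x) := by
    intro x
    simp only [Geo.step, Prod.fst_zero, Prod.snd_zero, zero_smul, add_zero]
  have h2 : ∑ k ∈ univ.filter (fun k => star (g.src k).y = X),
      (g.step j ℓ (L * ℓ) 0 s).z k • g.bE k -
      ∑ k ∈ univ.filter (fun k => star (g.src k).y = X), t.z k • g.bE k =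
      ∑ k ∈ univ.filter (fun k => star (g.src k).y = X), s.z k • g.bE k -
      ∑ k ∈ univ.filter (fun k => star (g.src k).y = X), s'.z k • g.bE k := by
    simp only [← sum_sub_distrib, ← sub_smul, H.tz]
  simp only [St.car, h1, H.tv, H.hf.2, sum_const_zero, zero_add, sum_add_distrib]
  linear_combination (exp := 1) h2

open Classical in
/-- The new defect size of one set. -/
theorem df_le (X : Finset g.P) :
    g.df (L * ℓ) h' β' (g.step j ℓ (L * ℓ) 0 s) t X * Real.exp ((stein X : ℝ) / ℓ) ≤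
      ∑ U ∈ univ.filter (fun U => g.tgt ℓ U = X),
        2 * (fac g ℓ kc ks U * (2 * g.pn ℓ h β U (g.dp ℓ U (s.K U - s'.K U))) +
          Real.exp 6 * (kc + 2 * ke) * Real.exp (2 * (stein U : ℝ) / ℓ) *
            g.pn ℓ (h / 2) β U (G2 g ℓ (L * ℓ) s s' U)) +
      2 * (fac g ℓ kc ks X * g.pn ℓ h β X (g.dp ℓ X (s.car X - s'.car X)) +
        kc * Real.exp (2 * (stein X : ℝ) / ℓ) * g.pn ℓ h β X (bp g ℓ X (s.car X - s'.car X))) +
      ∑ x ∈ univ.filter (fun x => star x = X),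
        ∑ U ∈ univ.filter (fun U => x ∈ U ∧ g.Xtr ℓ (L * ℓ) U), (U.card : ℝ)⁻¹ *
          (2 * Real.exp 6 * ke * g.pn ℓ (h / 2) β U (G2 g ℓ (L * ℓ) s s' U)) := by
  have hw := (Real.exp_pos ((stein X : ℝ) / ℓ)).le
  rw [Geo.df, add_mul, add_assoc]
  refine add_le_add ?_ ?_
  · rw [H.K_eq]
    refine (mul_le_mul_of_nonneg_right ((H.a'.dp (sum_mem fun U hU => ?_) _ _).trans
      (mul_le_mul_of_nonneg_left (H.a'.sum _ _ _) zero_le_two)) hw).trans ?_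
    · rw [← (mem_filter.1 hU).2]
      exact add_mem (sub_xtr_mem (H.G1_mem U)) (sub_xtr_mem (H.G2_mem U))
    · rw [mul_assoc, sum_mul, mul_sum]
      refine sum_le_sum fun U hU => mul_le_mul_of_nonneg_left ?_ zero_le_two
      rw [← (mem_filter.1 hU).2]
      refine (mul_le_mul_of_nonneg_right (H.a'.add _ _ _) (Real.exp_pos _).le).trans ?_
      rw [add_mul]
      exact add_le_add (H.A1 U) (H.A2 U (H.G2_mem U))
  · have hm : ∑ x ∈ univ.filter (fun x => star x = X), g.Ext x (g.out ℓ (L * ℓ) s x) ∈ g.sub X :=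
      sum_mem fun x hx => by rw [← (mem_filter.1 hx).2]; exact Ext_mem x _
    rw [H.car_eq]
    refine (mul_le_mul_of_nonneg_right ((H.a'.dp (add_mem (H.dc_mem X) hm) _ _).trans
      (mul_le_mul_of_nonneg_left (H.a'.add _ _ _) zero_le_two)) hw).trans ?_
    rw [mul_add, add_mul]
    refine add_le_add ?_ ?_
    · rw [mul_assoc]
      refine mul_le_mul_of_nonneg_left ?_ zero_le_two
      have h1 := H.a'.add X (g.dp ℓ X (s.car X - s'.car X)) (bp g ℓ X (s.car X - s'.car X))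
      rw [dp_add_bp] at h1
      refine (mul_le_mul_of_nonneg_right h1 hw).trans ?_
      rw [add_mul]
      exact add_le_add (H.B1 X) (H.B2 X (bp_mem (H.dc_mem X) X))
    · refine (mul_le_mul_of_nonneg_right (mul_le_mul_of_nonneg_left (H.a'.sum _ _ _) zero_le_two)
        hw).trans ?_
      rw [mul_assoc, sum_mul, mul_sum]
      refine sum_le_sum fun x hx => ?_
      rw [← (mem_filter.1 hx).2, H.Ext_out]
      refine (mul_le_mul_of_nonneg_left (mul_le_mul (H.a'.sum _ _ _)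
        (H.wt_le (by have := stein_star x; have := H.hl; omega)) (Real.exp_pos _).le
        (sum_nonneg fun _ _ => pn_nonneg _ _)) zero_le_two).trans ?_
      rw [sum_mul, mul_sum]
      refine sum_le_sum fun U hU => ?_
      rw [H.a'.smul, abs_of_nonneg (by positivity)]
      have h2 := mul_le_mul_of_nonneg_left (H.T4 U (mem_filter.1 hU).2.2 x (mem_filter.1 hU).2.1 _
        (H.G2_mem U)) (by positivity : 0 ≤ 2 * Real.exp 6 * (U.card : ℝ)⁻¹)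
      linarith

/-- The anchored sum is reduced to a sum over the old sets. -/
theorem sum_df_le (z : g.P) :
    ∑ X ∈ near (L * ℓ) z,
      g.df (L * ℓ) h' β' (g.step j ℓ (L * ℓ) 0 s) t X * Real.exp ((stein X : ℝ) / ℓ) ≤
      ∑ U ∈ near (2 * (L * ℓ)) z, (4 * (fac g ℓ kc ks U * g.df ℓ h β s s' U) +
        6 * Real.exp 6 * (kc + 3 * ke) * ((g.bf ℓ h s U +
          g.pn ℓ (h / 2) β U (NL g (covP (Dm g.A) ℓ (L * ℓ)) s s' U)) *
            Real.exp (2 * (stein U : ℝ) / ℓ))) := by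
  classical
  have hc := H.kc0
  have he := H.ke0
  have h1 : L * ℓ + 1 ≤ 2 * (L * ℓ) := by have := H.a'.l; omega
  have h2 : L * ℓ ≤ 2 * (L * ℓ) := by omega
  have h3 : ∀ U : Finset g.P, 0 ≤ Real.exp 6 * (kc + 2 * ke) * Real.exp (2 * (stein U : ℝ) / ℓ) :=
    fun U => by positivity
  have h4 : ∀ U : Finset g.P, 0 ≤ kc * Real.exp (2 * (stein U : ℝ) / ℓ) := fun U => by positivity
  have h5 : 0 ≤ 2 * Real.exp 6 * ke := by positivity
  refine (sum_le_sum fun X _ => H.df_le X).trans ?_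
  rw [sum_add_distrib, sum_add_distrib]
  refine (add_le_add (add_le_add (sum_fiber_le _ (near (2 * (L * ℓ)) z) _ _
    (fun U => mul_nonneg zero_le_two (add_nonneg (mul_nonneg (H.fac_nonneg U)
      (mul_nonneg zero_le_two (pn_nonneg _ _))) (mul_nonneg (h3 U) (pn_nonneg _ _))))
    fun U hU => ?_) (sum_le_sum_of_subset_of_nonneg (near_mono h2 z) fun X _ _ =>
      mul_nonneg zero_le_two (add_nonneg (mul_nonneg (H.fac_nonneg X) (pn_nonneg _ _))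
        (mul_nonneg (h4 X) (pn_nonneg _ _)))))
    ((P144Z.R8.Hyp.sum_star_le z _ _ fun U => mul_nonneg h5 (pn_nonneg _ _)).trans
      (sum_le_sum_of_subset_of_nonneg (near_mono h1 z) fun U _ _ =>
        mul_nonneg h5 (pn_nonneg _ _)))).trans ?_
  · unfold Geo.tgt at hU
    split_ifs at hU
    · exact near_mono h1 z (near_plus hU)
    · exact near_mono h2 z hU
  · rw [← sum_add_distrib, ← sum_add_distrib]
    refine sum_le_sum fun U _ => ?_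
    rw [← bf_split H.a H.hs H.hf, Geo.df]
    exact P144Z.R8.Hyp.arith hc he (H.pn_G2 U) (pn_nonneg _ _) (H.fac_nonneg U) (pn_nonneg _ _) (pn_nonneg _ _)
      (pn_nonneg _ _) (pn_nonneg _ _) (Real.one_le_exp (by positivity))
      (Real.one_le_exp (by norm_num))

theorem sum_up {f : Finset g.P → ℝ} {D : ℝ} (hf : ∀ X, 0 ≤ f X) (hD : Anch ℓ L f D) (z : g.P) :
    ∑ U ∈ near (2 * (L * ℓ)) z, f U * Real.exp ((L : ℝ) * (stein U : ℝ) / ℓ) ≤ 200 * L ^ 2 * D := by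
  have h6 : 6 * ℓ ≤ L * ℓ := Nat.mul_le_mul_right ℓ H.hL
  have hl : (ℓ : ℝ) ≠ 0 := by have := H.hl; positivity
  refine (sum_near H.a.l (by omega) hf hD z).trans (le_of_eq ?_)
  push_cast
  field_simp
  ring

open Classical in
/-- The abstract step. -/
theorem core {D b ν ρ : ℝ}
    (hρ : ∀ z, ∑ U ∈ (near (2 * (L * ℓ)) z).filter (fun U => stein U ≤ ℓ ∧ Dfc g ℓ U),
      ks U * g.df ℓ h β s s' U ≤ ρ * D)
    (hD : Anch ℓ L (g.df ℓ h β s s') D) (hb : Anch ℓ L (g.bf ℓ h s) b)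
    (hν : Anch (L * ℓ) (2 * L) (fun U =>
      g.pn ℓ (h / 2) β U (NL g (covP (Dm g.A) ℓ (L * ℓ)) s s' U)) ν) :
    Anch (L * ℓ) L (g.df (L * ℓ) h' β' (g.step j ℓ (L * ℓ) 0 s) t)
      ((4 * Real.exp 6 * ρ + 800 * kc * L ^ 2 * Real.exp (2 - L)) * D +
        1200 * Real.exp 6 * (kc + 3 * ke) * (L ^ 2 * b + ν)) := by
  intro z
  have hc := H.kc0
  have he := H.ke0
  have hl : (0 : ℝ) < ℓ := by have := H.hl; positivity
  have hL : (6 : ℝ) ≤ L := by exact_mod_cast H.hL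
  simp only [H.wt_eq]
  refine (H.sum_df_le z).trans ?_
  rw [sum_add_distrib, ← mul_sum, ← mul_sum]
  have h1 := hρ z
  have h2 := H.sum_up (df_nonneg s s') hD z
  have h3 : ∑ U ∈ near (2 * (L * ℓ)) z, fac g ℓ kc ks U * g.df ℓ h β s s' U ≤
      Real.exp 6 * (ρ * D) + kc * Real.exp (2 - L) * (200 * L ^ 2 * D) := by
    refine le_trans ?_ (add_le_add (mul_le_mul_of_nonneg_left h1 (by positivity))
      (mul_le_mul_of_nonneg_left h2 (by positivity)))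
    rw [sum_filter, mul_sum, mul_sum, ← sum_add_distrib]
    refine sum_le_sum fun U _ => ?_
    have h0 := df_nonneg (ℓ := ℓ) (h := h) (β := β) s s' U
    unfold fac
    by_cases hU : stein U ≤ ℓ
    · rw [if_pos hU]
      refine le_add_of_le_of_nonneg (le_of_eq ?_) (by positivity)
      by_cases hD : Dfc g ℓ U
      · rw [if_pos hD, if_pos ⟨hU, hD⟩, mul_assoc]
      · rw [if_neg hD, if_neg fun h => hD h.2, zero_mul, mul_zero]
    · rw [if_neg hU, if_neg fun h => hU h.1, mul_zero, zero_add, mul_assoc, mul_assoc,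
        mul_left_comm (Real.exp _), ← Real.exp_add, mul_comm (Real.exp _)]
      refine mul_le_mul_of_nonneg_left (mul_le_mul_of_nonneg_left (Real.exp_le_exp.2 ?_) h0) hc
      have h4 : (1 : ℝ) ≤ (stein U : ℝ) / ℓ := by
        rw [le_div_iff₀ hl, one_mul]; exact_mod_cast (not_le.1 hU).le
      rw [mul_div_assoc, mul_div_assoc]
      nlinarith
  have h4 : ∑ U ∈ near (2 * (L * ℓ)) z, g.bf ℓ h s U * Real.exp (2 * (stein U : ℝ) / ℓ) ≤
      200 * L ^ 2 * b := by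
    refine le_trans (sum_le_sum fun U _ => mul_le_mul_of_nonneg_left (Real.exp_le_exp.2 ?_)
      (bf_nonneg s U)) (H.sum_up (bf_nonneg s) hb z)
    gcongr
    linarith
  have h5 : ∑ U ∈ near (2 * (L * ℓ)) z, g.pn ℓ (h / 2) β U (NL g (covP (Dm g.A) ℓ (L * ℓ)) s s' U) *
      Real.exp (2 * (stein U : ℝ) / ℓ) ≤ 200 * ν := by
    have h6 := sum_near H.a'.l (by omega : L * ℓ ≤ 2 * (L * ℓ)) (fun U => pn_nonneg _ _) hν z
    have h7 : (L : ℝ) ≠ 0 := by linarith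
    refine le_trans (le_of_eq (sum_congr rfl fun U _ => ?_)) (h6.trans (le_of_eq ?_))
    · congr 2
      push_cast
      field_simp
    · push_cast
      field_simp
      ring
  simp only [add_mul (g.bf ℓ h s _), sum_add_distrib]
  have h8 := mul_le_mul_of_nonneg_left (add_le_add h4 h5)
    (by positivity : 0 ≤ 6 * Real.exp 6 * (kc + 3 * ke))
  linarith

end Hyp

end Vale.Agent.P144Z.W.Geo.R8
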