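import Vale.Agent.P144D.R8.Gen

/-!
# Steps with a boundary: the contraction factors of the small sets and their sum
-/

namespace Vale.Agent.P144Z.W.Geo.R8

open Finset Matrix Vale.Agent.P144Z.Geo Vale.Agent.P144Z.R8 Filter Topology

open Classical in
/-- The contraction factor of a small set. -/
noncomputable def ksD (g : Geo) (L ℓ m : ℕ) (c η κ k₀ : ℝ) (U : Finset g.P) : ℝ :=
  if ∃ k, (g.src k).y ∈ U then k₀
  else if ∀ z ∈ U, RN.Shr g.A ℓ (L * ℓ) z κ then 32 * κ ^ 2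
  else if ∃ y, RkA g.A ℓ (L * ℓ) ((m + 3) * ℓ) c η y ∧ ∀ z ∈ U, tdist z y ≤ (m + 1) * ℓ then
    576 * (c * η / L)
  else if ∀ z ∈ U, RN.Shr g.A ℓ (L * ℓ) z (c * √((ℓ : ℝ) / (L * ℓ : ℕ))) then 32 * (c ^ 2 / L)
  else k₀

variable {g : Geo} {L ℓ m : ℕ} {c η κ k₀ : ℝ}

theorem ksD_nonneg (hc : 0 ≤ c) (hη : 0 ≤ η) (hk : 0 ≤ k₀) (U : Finset g.P) :
    0 ≤ ksD g L ℓ m c η κ k₀ U := by
  unfold ksD
  split_ifs <;> positivity

theorem ksD_le (hc : 0 ≤ c) (hη : 0 ≤ η) (hk : 0 ≤ k₀) (U : Finset g.P) :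
    ksD g L ℓ m c η κ k₀ U ≤ k₀ + 32 * κ ^ 2 + 576 * (c * η / L) + 32 * (c ^ 2 / L) := by
  have h1 : 0 ≤ 32 * κ ^ 2 := by positivity
  have h2 : 0 ≤ 576 * (c * η / L) := by positivity
  have h3 : 0 ≤ 32 * (c ^ 2 / L) := by positivity
  unfold ksD
  split_ifs <;> linarith

theorem small_le (hA : IsW g.A) (hl : 1 ≤ ℓ) (hm : 2 * m + 8 ≤ L) (hc : 576 * c ^ 2 ≤ L)
    (hη : 0 < η) (hηc : η ≤ c) (hκ : 0 < κ) (hκ1 : 8 * κ ≤ 1) {k h' β : ℝ} (hk : 0 < k)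
    (hh' : 0 < h') (h4 : h' ≤ 4 * k) (hβ : 0 < β) {U : Finset g.P} {F : g.E} (hF : F ∈ g.sub U)
    (h0 : g.noF F = 0) (hk₀ : g.pn (L * ℓ) h' β U F ≤ k₀ * g.pn ℓ k β U F) :
    g.pn (L * ℓ) h' β U F ≤ ksD g L ℓ m c η κ k₀ U * g.pn ℓ k β U F := by
  have hL : (0 : ℝ) < L := by exact_mod_cast (by omega : 0 < L)
  have hl0 : (0 : ℝ) < ℓ := by exact_mod_cast hl
  have hll : ℓ ≤ L * ℓ := Nat.le_mul_of_pos_left _ (by omega)
  have hc0 : 0 < c := hη.trans_le hηc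
  set t := √((ℓ : ℝ) / (L * ℓ : ℕ)) with ht
  have ht2 : t ^ 2 = 1 / L := by
    rw [ht, Real.sq_sqrt (by positivity)]
    push_cast
    field_simp
  have ht0 : 0 < t := Real.sqrt_pos.2 (by push_cast; positivity)
  have hct : 24 * (c * t) ≤ 1 := by
    refine (sq_le_sq₀ (by positivity) zero_le_one).1 ?_
    rw [mul_pow, mul_pow, ht2, one_pow, mul_one_div, ← mul_div_assoc, div_le_one hL]
    linarith
  have p0 := pn_nonneg (ℓ := ℓ) (h := k) (β := β) U F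
  unfold ksD
  split_ifs with h1 h2 h3 h5
  · exact hk₀
  · refine ((pn_sch hA hl hk hβ hF hκ.le hll hh' h2 (ρ := 4 * κ) (by positivity)
      (by nlinarith)).2 (by linarith) h0).trans (le_of_eq (by ring))
  · obtain ⟨y, ⟨u, hu⟩, hy⟩ := h3
    have hm' : (2 * m + 8) * ℓ ≤ L * ℓ := Nat.mul_le_mul_right ℓ hm
    have key : ∀ z ∈ U, ∀ (w w' : Tor g.M × Fin 4 → ℝ) (a : ℝ),
        hsq g.A ℓ (ball y ((m + 3) * ℓ)) w' * ((L * ℓ : ℕ) : ℝ) ^ 2 ≤
          a ^ 2 * (ℓ : ℝ) ^ 2 * hsq g.A (L * ℓ : ℕ) (ball y (L * ℓ)) w →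
        hsq g.A ℓ (ball y ((m + 3) * ℓ)) w' * (L * ℓ : ℕ) ≤
          (a * t) ^ 2 * ℓ * hsq g.A (L * ℓ : ℕ) (ball z (2 * (L * ℓ))) w := by
      intro z hz w w' a h
      have e1 : hsq g.A (L * ℓ : ℕ) (ball y (L * ℓ)) w ≤
          hsq g.A (L * ℓ : ℕ) (ball z (2 * (L * ℓ))) w :=
        E4.hsq_mono _ (Nat.cast_nonneg _) le_rfl (E4.ball_sub (by
          have := hy z hz
          rw [tdist_comm]
          nlinarith)) w
      have e2 := h.trans (mul_le_mul_of_nonneg_left e1 (by positivity))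
      refine le_of_mul_le_mul_right (a := ((L * ℓ : ℕ) : ℝ)) ?_ (by push_cast; positivity)
      rw [mul_assoc, ← sq]
      refine e2.trans (le_of_eq ?_)
      rw [mul_pow a, ht2]
      push_cast
      field_simp
    refine (RN.pn_rk (a := c * t) (κ := η * t) (u := u) hl hk hh' hβ (by positivity)
      (by gcongr) (by nlinarith [mul_pos hc0 ht0]) (fun z hz => ?_)
      (fun z hz w => key z hz w w c (hu w).1)
      (fun z hz w => (hu w).2.imp fun s hs => key z hz w _ η hs) hll hF h0).trans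
      (mul_le_mul_of_nonneg_right ?_ p0)
    · have := hy z hz
      constructor <;> nlinarith
    · have e1 : (h' / k) ^ 2 ≤ 4 ^ 2 :=
        pow_le_pow_left₀ (by positivity) (by rw [div_le_iff₀ hk]; linarith) 2
      have e2 : c * t * (η * t) = c * η / L := by
        rw [show c * t * (η * t) = c * η * t ^ 2 by ring, ht2, mul_one_div]
      rw [mul_assoc, mul_assoc, e2]
      have : 0 ≤ c * η / L := by positivity
      nlinarith
  · refine ((pn_sch hA hl hk hβ hF (by positivity) hll hh' h5 (ρ := 4 * (c * t)) (by positivity)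
      (by nlinarith [mul_pos hc0 ht0])).2 (by linarith) h0).trans (le_of_eq ?_)
    rw [mul_pow, mul_pow, ht2]
    ring
  · exact hk₀

/-- The sets that come close to a finite set of points. -/
theorem sum_cover (hl : 1 ≤ ℓ) {τ D : ℝ} (hτ : 0 ≤ τ) {f : Finset g.P → ℝ} (hf : ∀ X, 0 ≤ f X)
    (hD : Anch ℓ τ f D) (Z : Finset g.P) {n : ℕ} (hZ : Z.card ≤ n) (p : ℕ) (S : Finset (Finset g.P))
    (hS : ∀ U ∈ S, ∃ x ∈ U, ∃ y ∈ Z, tdist x y ≤ p * ℓ) :
    ∑ U ∈ S, f U ≤ (2 * p + 1) ^ 2 * n * D := by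
  classical
  choose W hW _ hW' using fun c : g.P => cover_ball c (p * ℓ) hl
  have hl0 : (0 : ℝ) < ℓ := by exact_mod_cast hl
  have h3 := G.anch_cover' (t := 0) hf hD S (Z.biUnion W) (fun U hU => by
      obtain ⟨x, hx, y, hy, hxy⟩ := hS U hU
      obtain ⟨w, hw, hxw⟩ := hW' y x hxy
      exact ⟨x, hx, w, mem_biUnion.2 ⟨y, hy, hw⟩, hxw⟩) fun U _ => by positivity
  rw [neg_zero, Real.exp_zero, mul_one] at h3
  refine h3.trans (mul_le_mul_of_nonneg_right ?_ (G.anch_nonneg hf hD))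
  refine le_trans (Nat.cast_le.2 card_biUnion_le) ?_
  rw [Nat.cast_sum]
  refine (sum_le_card_nsmul _ _ ((2 * p + 1 : ℝ) ^ 2) fun c _ => (hW c).trans (le_of_eq ?_)).trans ?_
  · push_cast
    field_simp
  · rw [nsmul_eq_mul, mul_comm]
    exact mul_le_mul_of_nonneg_left (Nat.cast_le.2 hZ) (by positivity)

open Classical in
theorem sum_ksD (hl : 8 ≤ ℓ) (hL : 8 ≤ L) (hM : 16 * (L * ℓ) ≤ g.M) (hS : g.SepW (6 * (L * ℓ)))
    {n₁ n₂ : ℕ} (hB : Bd g.A ℓ (L * ℓ) m c η κ n₁ n₂) (hc : 0 ≤ c) (hη : 0 ≤ η) (hηc : η ≤ c)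
    (hk : 0 ≤ k₀) {f : Finset g.P → ℝ} {D : ℝ} (hf : ∀ X, 0 ≤ f X) (hD : Anch ℓ L f D) (z : g.P) :
    ∑ U ∈ (near (2 * (L * ℓ)) z).filter (fun U => stein U ≤ ℓ ∧ Dfc g ℓ U),
      ksD g L ℓ m c η κ k₀ U * f U ≤
      (169 * (k₀ + 608 * (c ^ 2 / L)) + 10000 * bdl L m c η κ n₁ n₂) * D := by
  obtain ⟨Z₀, hZ₀, a1, a2⟩ := lcov_of_sep (ℓ := ℓ) (r := 3 * (L * ℓ))
    (sepW_sep (sepW_mono hS (by omega))) z
  obtain ⟨Z₁, Z₂, hZ₁, hZ₂, hR, hcov⟩ := hB.cov z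
  have h8 : 8 * ℓ ≤ L * ℓ := Nat.mul_le_mul_right ℓ hL
  have hL0 : (8 : ℝ) ≤ L := by exact_mod_cast hL
  have hD0 := G.anch_nonneg hf hD
  set S := (near (2 * (L * ℓ)) z).filter (fun U => stein U ≤ ℓ ∧ Dfc g ℓ U) with hSd
  set P₀ : Finset g.P → Prop := fun U => ∃ x ∈ U, ∃ y ∈ Z₀, tdist x y ≤ 6 * ℓ
  set P₁ : Finset g.P → Prop := fun U => ∃ x ∈ U, ∃ y ∈ Z₁, tdist x y ≤ m * ℓ
  set P₂ : Finset g.P → Prop := fun U => ∃ x ∈ U, ∃ y ∈ Z₂, tdist x y ≤ m * ℓ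
  have e1 : c * η / L ≤ c ^ 2 / L := by rw [sq]; gcongr
  have e2 : 0 ≤ c * η / L := by positivity
  have e3 : 0 ≤ 32 * κ ^ 2 := by positivity
  have e4 : 0 ≤ c ^ 2 / L := by positivity
  have key : ∀ U ∈ S, ksD g L ℓ m c η κ k₀ U ≤ 32 * κ ^ 2 +
      (if P₀ U then k₀ + 608 * (c ^ 2 / L) else 0) + (if P₁ U then 576 * (c * η / L) else 0) +
      (if P₂ U then 576 * (c ^ 2 / L) else 0) := by
    intro U hU
    obtain ⟨hn, hs, hd⟩ := mem_filter.1 hU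
    obtain ⟨x', hx', hxz⟩ := mem_near.1 hn
    have n1 : 0 ≤ if P₁ U then 576 * (c * η / L) else 0 := by split_ifs <;> positivity
    have n2 : 0 ≤ if P₂ U then 576 * (c ^ 2 / L) else 0 := by split_ifs <;> positivity
    by_cases h0 : P₀ U
    · have := ksD_le (g := g) (L := L) (ℓ := ℓ) (m := m) (κ := κ) hc hη hk U
      rw [if_pos h0]
      linarith
    rw [if_neg h0, add_zero]
    have hsrc : ¬ ∃ k, (g.src k).y ∈ U := by
      rintro ⟨k, hk⟩
      have b1 := tdist_le_stein hk hx'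
      have b2 := tdist_triangle (g.src k).y x' z
      obtain ⟨y, hy, hpc⟩ := a2 k (by omega)
      exact h0 ⟨_, hk, y, hy, by omega⟩
    have h4 : ¬ ∀ x ∈ U, Flat g.A x (2 * stein U + 3 * ℓ) := fun h =>
      hd.resolve_right hsrc ⟨h, by omega⟩
    simp only [Flat, not_forall] at h4
    obtain ⟨x, hx, p, hp, hfp⟩ := h4
    have b0 : ∀ w ∈ U, tdist p w ≤ 6 * ℓ := fun w hw => by
      have b1 := tdist_le_stein hx hw
      have b2 := tdist_triangle p x w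
      omega
    have hp1 : |flux g.A p| ≠ 1 := fun h => by
      have b3 := tdist_triangle p x' z
      have b1 := b0 x' hx'
      obtain ⟨y, hy, hpc⟩ := a1 p (((abs_eq zero_le_one).1 h).resolve_left hfp) (by omega)
      have b4 := tdist_triangle x p y
      rw [tdist_comm x p] at b4
      exact h0 ⟨x, hx, y, hy, by omega⟩
    unfold ksD
    rw [if_neg hsrc]
    by_cases h2 : ∀ z ∈ U, RN.Shr g.A ℓ (L * ℓ) z κ
    · rw [if_pos h2]
      linarith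
    rw [if_neg h2]
    push Not at h2
    obtain ⟨w, hw, hw'⟩ := h2
    have b5 := tdist_le_stein hw hx'
    have b6 := tdist_triangle w x' z
    rcases (hcov w (by omega) ⟨p, b0 w hw, hp1⟩).resolve_left hw' with ⟨y, hy, hwy⟩ | ⟨y, hy, hwy⟩
    · rw [if_pos ⟨y, hR y hy, fun v hv => by
        have b7 := tdist_le_stein hv hw
        have b8 := tdist_triangle v w y
        rw [add_mul]
        omega⟩, if_pos (show P₁ U from ⟨w, hw, y, hy, hwy⟩)]
      linarith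
    · rw [if_pos (show P₂ U from ⟨w, hw, y, hy, hwy⟩),
        if_pos fun v hv => hB.sch v ⟨p, (b0 v hv).trans (by omega), hp1⟩]
      split_ifs <;> linarith
  have s0 := sum_cover (by omega) (by positivity) hf hD Z₀ hZ₀ 6 (S.filter P₀)
    fun U hU => (mem_filter.1 hU).2
  have s1 := sum_cover (by omega) (by positivity) hf hD Z₁ hZ₁ m (S.filter P₁)
    fun U hU => (mem_filter.1 hU).2
  have s2 := sum_cover (by omega) (by positivity) hf hD Z₂ hZ₂ m (S.filter P₂)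
    fun U hU => (mem_filter.1 hU).2
  have s3 := sum_cover (by omega) (by positivity) hf hD {z} (card_singleton z).le (2 * L) S
    fun U hU => by
      obtain ⟨x, hx, h⟩ := mem_near.1 (mem_filter.1 hU).1
      exact ⟨x, hx, z, mem_singleton_self z, by rwa [mul_assoc]⟩
  refine (sum_le_sum fun U hU => mul_le_mul_of_nonneg_right (key U hU) (hf U)).trans ?_
  have hi : ∀ (P : Finset g.P → Prop) [DecidablePred P] (a : ℝ),
      ∑ U ∈ S, (if P U then a else 0) * f U = a * ∑ U ∈ S.filter P, f U := fun P _ a => by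
    rw [sum_filter P, mul_sum]
    exact sum_congr rfl fun U _ => by split_ifs <;> simp
  simp only [add_mul _ (ite _ _ _), sum_add_distrib]
  rw [hi P₀, hi P₁, hi P₂, ← mul_sum]
  have t0 := mul_le_mul_of_nonneg_left s0 (by positivity : 0 ≤ k₀ + 608 * (c ^ 2 / L))
  have t1 := mul_le_mul_of_nonneg_left s1 (by positivity : 0 ≤ 576 * (c * η / L))
  have t2 := mul_le_mul_of_nonneg_left s2 (by positivity : 0 ≤ 576 * (c ^ 2 / L))
  have t3 := mul_le_mul_of_nonneg_left s3 e3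
  have u1 : (2 * (m : ℝ) + 1) ^ 2 ≤ 4 * (m + 1) ^ 2 := by nlinarith [Nat.cast_nonneg (α := ℝ) m]
  have u3 : (2 * ((2 * L : ℕ) : ℝ) + 1) ^ 2 ≤ 25 * L ^ 2 := by push_cast; nlinarith
  have v1 := mul_le_mul_of_nonneg_right u1 (by positivity : 0 ≤ 576 * (c * η / L) * n₁ * D)
  have v2 := mul_le_mul_of_nonneg_right u1 (by positivity : 0 ≤ 576 * (c ^ 2 / L) * n₂ * D)
  have v3 := mul_le_mul_of_nonneg_right u3 (by positivity : 0 ≤ 32 * κ ^ 2 * D)
  have w1 : 0 ≤ (m + 1 : ℝ) ^ 2 * (c * η / L * n₁ * D) := by positivity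
  have w2 : 0 ≤ (m + 1 : ℝ) ^ 2 * (c ^ 2 / L * n₂ * D) := by positivity
  have w3 : 0 ≤ (L : ℝ) ^ 2 * κ ^ 2 * D := by positivity
  have e : bdl L m c η κ n₁ n₂ * D = (L : ℝ) ^ 2 * κ ^ 2 * D +
      (m + 1 : ℝ) ^ 2 * (c * η / L * n₁ * D) + (m + 1 : ℝ) ^ 2 * (c ^ 2 / L * n₂ * D) := by
    unfold bdl
    ring
  rw [add_mul _ _ D, mul_assoc 10000, e]
  push_cast at t0 t3 v3
  linarith

end Vale.Agent.P144Z.W.Geo.R8
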